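import Vale.Agent.P226.Full

/-!
The Gaussian propeller conjecture of Khot and Naor: the sum of the squared Gaussian first moments
of the cells of any finite measurable partition of `ℝ^d` is at most `9 / (8 π)`.
-/

open MeasureTheory ProbabilityTheory Real

namespace Vale.Agent.Results.P226.Propeller

theorem result (d k : ℕ) (A : Fin k → Set (EuclideanSpace ℝ (Fin d)))
    (hA : ∀ i, MeasurableSet (A i))
    (hdisj : Pairwise
      (fun i j => AEDisjoint (stdGaussian (EuclideanSpace ℝ (Fin d))) (A i) (A j))) :
    ∑ i, ‖∫ x in A i, x ∂stdGaussian (EuclideanSpace ℝ (Fin d))‖ ^ 2 ≤ 9 / (8 * π) :=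
  Vale.Agent.P226.propeller d k A hA hdisj

end Vale.Agent.Results.P226.Propeller
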